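import Crest.Agent.N067.A.Ker6
import Crest.Agent.N067.A.Dual
import Crest.Agent.N067.A.Ball
import Crest.Agent.N067.Y.Base
import Crest.Agent.N067.Y.StG
import Crest.Agent.N067.M.Wedge0
import Crest.Agent.N067.M.FlatU
import Crest.Agent.N067.A.Gib
import Crest.Agent.N067.A.DVar

-- ▼ part N067/B/Deep
section

/-!
# Row 67, BAD (helper16): no ridge well inside a zero-free ball
-/

set_option autoImplicit false

open MeasureTheory Laplacian InnerProductSpace Topology Filter Set Metric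
open scoped RealInnerProductSpace Gradient ContDiff

namespace Crest.Agent.N067.Bd

open Crest.Agent.R077 Crest.Agent.N067.Ker Crest.Agent.N067.Y

noncomputable section

variable {n : ℕ} {v : EE n → ℝ}

theorem psi_decay (n : ℕ) {a : ℝ} (ha0 : 0 ≤ a) (ha : a < √2) : ∃ C : ℝ, 1 ≤ C ∧
    ∀ v : EE n → ℝ, Sol v → ∀ (x : EE n) (R : ℝ), (∀ y ∈ ball x R, 0 < v y) →
      psi v x ≤ C * Real.exp (-(a * R)) := by
  obtain ⟨C, hC⟩ := decay n a ha0 ha
  refine ⟨max 1 (2 * C), le_max_left _ _, fun v hv x R h => ?_⟩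
  have h1 := hC v hv.isSol x R h
  have h2 := abs_lt.1 (hv.lt x)
  rw [neg_mul] at h1
  have h3 := mul_le_mul_of_nonneg_right (le_max_right 1 (2 * C)) (Real.exp_pos (-(a * R))).le
  unfold psi
  nlinarith

/-- the directional derivative of `ψ` against `ψ` -/
theorem cone_int (hn : 2 ≤ n) {a : ℝ} (ha0 : 0 ≤ a) (ha : a ^ 2 < 2) : ∃ I : ℝ, 0 ≤ I ∧
    ∀ (v : EE n → ℝ) (p e : EE n) (κ E : ℝ), Sol v → ‖e‖ = 1 → 0 ≤ κ → κ ≤ 1 → 0 ≤ E →
      (∀ z, -⟪z, e⟫ ≤ (1 - κ) * ‖z‖ → psi v (p + z) ^ 2 ≤ E * Real.exp (a * ‖z‖)) →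
      √2 * psi v p * (1 - κ - ‖∇ (dd v) p‖) ≤ E * I := by
  have i1 := (integrable_Gk_exp (n := n) two_pos ha).const_mul √2
  have i2 := integrable_G1_exp (n := n) two_pos ha
  refine ⟨3 * ∫ z : EE n, (√2 * (Gk 2 z * Real.exp (a * ‖z‖)) +
    G1 2 z * ‖z‖ * Real.exp (a * ‖z‖)), mul_nonneg (by norm_num) (integral_nonneg fun z => ?_),
    fun v p e κ E hv he k0 k1 hE h => ?_⟩
  · have := Gk_nonneg 2 z
    have := G1_nonneg 2 z
    positivity
  set S : EE n → ℝ := fun y => psi v y ^ 2 * (3 - tt v y) with hS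
  have S0 : ∀ y, 0 ≤ S y := fun y => mul_nonneg (sq_nonneg _) (by linarith [tt_le_one v y])
  have S1 : ∀ y, S y ≤ 3 * psi v y ^ 2 := fun y => by
    simp only [hS]; nlinarith [hv.tt_nonneg y, sq_nonneg (psi v y)]
  have S2 : ∀ y, |S y| ≤ 3 := fun y => by
    rw [abs_of_nonneg (S0 y)]
    linarith [S1 y, pow_le_one₀ (n := 2) (hv.psi_pos y).le (psi_le_one v y)]
  have cS : Continuous S := (hv.psi_sm.continuous.pow 2).mul (continuous_const.sub hv.continuous_tt)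
  have mS : AEStronglyMeasurable (fun z => S (p + z)) volume :=
    (cS.comp (continuous_const.add continuous_id)).aestronglyMeasurable
  have e1 : psi v p = ∫ z, Gk 2 z * S (p + z) := congrFun (psi_eq_res hv) p
  have i3 : Integrable fun z => Gk 2 z * S (p + z) :=
    integrable_Gk_mul two_pos (by norm_num) mS (gr_of_bdd fun z => S2 _)
  have i4 := integrable_G1_smul two_pos mS fun z => S2 (p + z)
  have e2 : fderiv ℝ (psi v) p e = ∫ z, G1 2 z * S (p + z) * ⟪z, e⟫ := by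
    have h1 := hasFDerivAt_res two_pos cS.aestronglyMeasurable S2 p
    rw [← psi_eq_res hv] at h1
    rw [h1.fderiv, resD, ContinuousLinearMap.integral_apply i4]
    simp
  have i5 : Integrable fun z => G1 2 z * S (p + z) * ⟪z, e⟫ := by
    simpa using i4.apply_continuousLinearMap e
  have e3 : fderiv ℝ (psi v) p e = -√2 * v p * psi v p * ⟪∇ (dd v) p, e⟫ := by
    rw [inner_grad, fderiv_eq_sum', fderiv_eq_sum', Finset.mul_sum]
    exact Finset.sum_congr rfl fun i _ => by rw [hv.pdv_psi]; ring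
  have key : ∫ z, (√2 * (1 - κ) * (Gk 2 z * S (p + z)) + G1 2 z * S (p + z) * ⟪z, e⟫) ≤
      ∫ z : EE n, 3 * E * (√2 * (Gk 2 z * Real.exp (a * ‖z‖)) +
        G1 2 z * ‖z‖ * Real.exp (a * ‖z‖)) := by
    refine integral_mono_ae ((i3.const_mul _).add i5) ((i1.add i2).const_mul _) ?_
    have : Nontrivial (EE n) := by
      have : Nonempty (Fin n) := ⟨⟨0, by omega⟩⟩
      infer_instance
    filter_upwards [compl_mem_ae_iff.2 (measure_singleton (0 : EE n))] with z hz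
    have g0 := Gk_nonneg 2 z
    have g1 := G1_nonneg 2 z
    have g2 := G1_lower hn two_pos hz
    have s0 := S0 (p + z)
    rcases le_total (-⟪z, e⟫) ((1 - κ) * ‖z‖) with h1 | h1
    · have b1 : S (p + z) ≤ 3 * (E * Real.exp (a * ‖z‖)) := by linarith [S1 (p + z), h z h1]
      have b2 : ⟪z, e⟫ ≤ ‖z‖ := by simpa [he] using real_inner_le_norm z e
      have b3 := mul_le_mul_of_nonneg_left b2 (mul_nonneg g1 s0)
      have b4 := mul_le_mul_of_nonneg_left b1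
        (show 0 ≤ √2 * Gk 2 z + G1 2 z * ‖z‖ by positivity)
      have b5 : 0 ≤ √2 * κ * (Gk 2 z * S (p + z)) := by positivity
      linarith
    · have b1 := mul_le_mul_of_nonneg_left h1 (mul_nonneg g1 s0)
      have b2 := mul_le_mul_of_nonneg_left g2 (mul_nonneg (sub_nonneg.2 k1) s0)
      have b3 : 0 ≤ 3 * E * (√2 * (Gk 2 z * Real.exp (a * ‖z‖)) +
        G1 2 z * ‖z‖ * Real.exp (a * ‖z‖)) := by positivity
      linarith
  rw [integral_add (i3.const_mul _) i5, integral_const_mul, integral_const_mul, ← e1, ← e2,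
    e3] at key
  have b1 : |v p * ⟪∇ (dd v) p, e⟫| ≤ 1 * ‖∇ (dd v) p‖ := by
    rw [abs_mul]
    exact mul_le_mul (hv.lt p).le (by simpa [he] using abs_real_inner_le_norm (∇ (dd v) p) e)
      (abs_nonneg _) zero_le_one
  have b2 := mul_le_mul_of_nonneg_left ((le_abs_self _).trans b1)
    (mul_pos sqrt2_pos (hv.psi_pos p)).le
  linarith

theorem cone_geo {z e : EE n} (he : ‖e‖ = 1) {κ m : ℝ} (k0 : 0 ≤ κ) (k1 : κ ≤ 1) (hm : 0 ≤ m)
    (h : -⟪z, e⟫ ≤ (1 - κ) * ‖z‖) (hz : m ≤ 2 * ‖z‖) : ‖z - m • e‖ ≤ ‖z‖ + m - m * κ / 3 := by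
  have h0 := norm_nonneg z
  have h1 : m * κ ≤ m := mul_le_of_le_one_right hm k1
  refine abs_le_of_sq_le_sq' ?_ (by linarith) |>.2
  rw [norm_sub_sq_real, inner_smul_right, norm_smul, he, mul_one, Real.norm_eq_abs, sq_abs]
  nlinarith [mul_le_mul_of_nonneg_left h hm, mul_le_mul_of_nonneg_left hz (mul_nonneg hm k0),
    sq_nonneg (m * κ)]

/-- **DEEP** -/
theorem deep (hn : 2 ≤ n) {ε τ : ℝ} (hε : 0 < ε) (hε1 : ε ≤ 1) (hτ : 0 < τ) :
    ∃ θ R0 : ℝ, 0 < θ ∧ θ ≤ 1 ∧ ∀ (v : EE n → ℝ) (p e : EE n) (R : ℝ), Sol v → ‖e‖ = 1 → R0 ≤ R →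
      (∀ z ∈ ball (p + (ε * R) • e) ((1 + ε - θ) * R), 0 < v z) → |dd v p| ≤ R → tt v p < τ := by
  obtain ⟨κ, k0, k1, k2⟩ : ∃ κ : ℝ, 0 < κ ∧ κ ≤ 1 / 4 ∧ 4 * κ ≤ τ :=
    ⟨min (1 / 4) (τ / 4), by positivity, min_le_left _ _,
      by linarith [min_le_right (1 / 4) (τ / 4)]⟩
  obtain ⟨σ, hσ⟩ : ∃ σ, σ = ε * κ / 12 := ⟨_, rfl⟩
  have s0 : 0 < σ := by rw [hσ]; positivity
  have s1 : σ ≤ 1 / 10 := by nlinarith
  have r2 := sqrt2_pos
  obtain ⟨a, ha⟩ : ∃ a, a * (1 + 3 * σ) = √2 * (1 + σ) :=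
    ⟨√2 * (1 + σ) / (1 + 3 * σ), by field_simp⟩
  have a0 : 0 < a := by by_contra h; nlinarith [not_lt.1 h]
  have a1 : a < √2 := by by_contra h; nlinarith [not_lt.1 h]
  obtain ⟨C, hC1, hC⟩ := psi_decay n a0.le a1
  obtain ⟨I, hI0, hI⟩ := cone_int hn a0.le (by nlinarith [sqrt2_sq])
  have h2 : Tendsto (fun R : ℝ => Real.exp (-(√2 * σ * R)) * (C ^ 2 * I)) atTop (𝓝 0) := by
    simpa using (Real.tendsto_exp_neg_atTop_nhds_zero.comp
      (tendsto_id.const_mul_atTop (mul_pos r2 s0))).mul_const (C ^ 2 * I)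
  obtain ⟨R0, hR0⟩ := eventually_atTop.1
    ((h2.eventually_lt_const (mul_pos r2 k0)).and (eventually_ge_atTop 0))
  refine ⟨σ, R0, s0, by linarith, fun v p e R hv he hR h hd => ?_⟩
  obtain ⟨b1, b0⟩ := hR0 R hR
  have key := hI v p e κ (C ^ 2 * Real.exp (-(√2 * (1 + σ) * R))) hv he k0.le (by linarith)
    (by positivity) fun z hz => by
      have c1 := hC v hv (p + z) ((1 + ε - σ) * R - ‖z - (ε * R) • e‖) fun y hy => h y (by
        rw [mem_ball_iff_norm] at hy ⊢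
        have := norm_add_le (y - (p + z)) (z - (ε * R) • e)
        rw [show y - (p + z) + (z - (ε * R) • e) = y - (p + (ε * R) • e) by abel] at this
        linarith)
      have c0 := (hv.psi_pos (p + z)).le
      have z0 := norm_nonneg z
      rw [mul_assoc, ← Real.exp_add]
      rcases le_total R (2 * ‖z‖) with h1 | h1
      · have c2 := cone_geo he k0.le (by linarith) (mul_nonneg hε.le b0) hz
          ((mul_le_of_le_one_left b0 hε1).trans h1)
        have c3 : psi v (p + z) ^ 2 ≤ psi v (p + z) := by nlinarith [psi_le_one v (p + z)]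
        refine c3.trans (c1.trans (mul_le_mul (by nlinarith) (Real.exp_le_exp.2 ?_)
          (Real.exp_pos _).le (by positivity)))
        have c4 := mul_le_mul_of_nonneg_left (show (1 + 3 * σ) * R - ‖z‖ ≤
          (1 + ε - σ) * R - ‖z - (ε * R) • e‖ by rw [hσ]; linarith) a0.le
        have c5 : a * ((1 + 3 * σ) * R) = √2 * (1 + σ) * R := by rw [← ha]; ring
        linarith
      · have c2 : ‖z - (ε * R) • e‖ ≤ ‖z‖ + ε * R := by
          simpa [norm_smul, he, abs_of_nonneg hε.le, abs_of_nonneg b0] using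
            norm_sub_le z ((ε * R) • e)
        refine (pow_le_pow_left₀ c0 c1 2).trans ?_
        rw [mul_pow, ← Real.exp_nat_mul]
        refine mul_le_mul_of_nonneg_left (Real.exp_le_exp.2 ?_) (by positivity)
        have c3 := mul_le_mul_of_nonneg_right s1 b0
        have c4 := mul_le_mul_of_nonneg_left (show (1 + 3 * σ) * R - ‖z‖ ≤
          2 * ((1 + ε - σ) * R - ‖z - (ε * R) • e‖) by linarith) a0.le
        have c5 : a * ((1 + 3 * σ) * R) = √2 * (1 + σ) * R := by rw [← ha]; ring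
        push_cast
        linarith
  have d1 : Real.exp (-(√2 * R)) ≤ psi v p := by
    rw [psi_eq_Psi hv]
    exact (Real.exp_le_exp.2 (neg_le_neg (mul_le_mul_of_nonneg_left hd r2.le))).trans
      (exp_le_Psi _)
  have d2 : 1 - 2 * κ < ‖∇ (dd v) p‖ := by
    by_contra h3
    have d3 : √2 * Real.exp (-(√2 * R)) * κ ≤ √2 * psi v p * (1 - κ - ‖∇ (dd v) p‖) :=
      mul_le_mul (by gcongr) (by linarith [not_lt.1 h3]) k0.le (mul_pos r2 (hv.psi_pos p)).le
    have d4 : Real.exp (-(√2 * (1 + σ) * R)) =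
        Real.exp (-(√2 * R)) * Real.exp (-(√2 * σ * R)) := by
      rw [← Real.exp_add]; congr 1; ring
    rw [d4] at key
    nlinarith [mul_lt_mul_of_pos_left b1 (Real.exp_pos (-(√2 * R)))]
  unfold tt
  nlinarith

end

end Crest.Agent.N067.Bd
end

-- ▼ part N067/B/Patch
section

/-!
# Row 67, BAD (helper16): the patch on the band below a ridge point
-/

set_option autoImplicit false

open MeasureTheory Laplacian InnerProductSpace Topology Filter Set Metric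
open scoped RealInnerProductSpace Gradient ContDiff

namespace Crest.Agent.N067.Bd

open Crest.Agent.R077 Crest.Agent.N067.Y Crest.Agent.N067.M

noncomputable section

variable {n : ℕ} {v : EE n → ℝ}

theorem dd_zero {y : EE n} (h : v y = 0) : dd v y = 0 := by simp [dd, h]

theorem pos_of_dd (hv : Sol v) {y : EE n} (h : 0 < dd v y) : 0 < v y := by
  by_contra h1
  rcases (not_lt.1 h1).eq_or_lt with h2 | h2
  · exact h.ne' (dd_zero h2)
  · exact h.not_gt (hv.dd_lt_zero h2)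

theorem nonneg_of_ball (hv : Sol v) {p : EE n} {R : ℝ} (hR : 0 < R) (h : ∀ z ∈ ball p R, 0 < v z) :
    ∀ z ∈ closedBall p R, 0 ≤ dd v z := by
  rw [← closure_ball p hR.ne']
  exact fun z hz => closure_minimal (fun z hz => (hv.dd_pos (h z hz)).le)
    (isClosed_le continuous_const hv.dd_diff.continuous) hz

/-- a nearest zero -/
theorem near (hv : Sol v) {p : EE n} (hp : 0 ≤ v p) :
    ∃ y, dd v y = 0 ∧ ∀ z ∈ ball p ‖p - y‖, 0 < v z := by
  have hne : {z | v z ≤ 0}.Nonempty := by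
    by_contra h
    obtain ⟨C, -, hC⟩ := psi_decay n zero_le_one Real.one_lt_sqrt_two
    have h1 : Tendsto (fun R : ℝ => C * Real.exp (-R)) atTop (𝓝 0) := by
      simpa using Real.tendsto_exp_neg_atTop_nhds_zero.const_mul C
    refine (hv.psi_pos p).not_ge (ge_of_tendsto' h1 fun R => ?_)
    simpa using hC v hv p R fun y _ => not_le.1 fun hy => h ⟨y, hy⟩
  obtain ⟨y, hy, e⟩ := (isClosed_le hv.diff.continuous continuous_const).exists_infDist_eq_dist hne p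
  rw [dist_eq_norm] at e
  have h1 : ∀ z ∈ ball p ‖p - y‖, 0 < v z := fun z hz =>
    not_le.1 (notMem_of_dist_lt_infDist (s := {z | v z ≤ 0}) (by rw [e, dist_comm]; exact hz))
  refine ⟨y, ?_, h1⟩
  rcases (norm_nonneg (p - y)).eq_or_lt with h | h
  · obtain rfl : p = y := sub_eq_zero.1 (norm_eq_zero.1 h.symm)
    exact dd_zero (le_antisymm hy hp)
  · refine le_antisymm (not_lt.1 fun h2 => (pos_of_dd hv h2).not_ge hy)
      (nonneg_of_ball hv h h1 y ?_)
    rw [mem_closedBall_iff_norm']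

/-- the gradient at a nearest zero points to the centre -/
theorem par (hv : Sol v) {y e : EE n} {R : ℝ} (hR : 0 < R) (he : ‖e‖ = 1) (hy : dd v y = 0)
    (h : ∀ z ∈ ball (y + R • e) R, 0 < v z) : nn v y = NN v y • e := by
  have hm : IsLocalMinOn (dd v) (closedBall (y + R • e) R) y :=
    IsMinOn.localize fun z hz => hy.trans_le (nonneg_of_ball hv hR h z hz)
  have h0 : y ∈ closedBall (y + R • e) R := by simp [norm_smul, he, hR.le, abs_of_pos hR]
  rcases (NN_nonneg v y).eq_or_lt with h1 | h1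
  · rw [← h1, zero_smul]; exact norm_eq_zero.1 h1.symm
  have h2 : y + R • e - R • nu v y ∈ closedBall (y + R • e) R := by
    simp [norm_smul, Wd.norm_nu h1, abs_of_pos hR]
  have h3 := hm.hasFDerivWithinAt_nonneg (hv.dd_diff y).hasFDerivAt.hasFDerivWithinAt
    (sub_mem_posTangentConeAt_of_segment_subset ((convex_closedBall _ _).segment_subset h0 h2))
  rw [← inner_grad, show y + R • e - R • nu v y - y = R • (e - nu v y) by module,
    inner_smul_right, inner_sub_right, nu, inner_smul_right] at h3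
  change 0 ≤ R * (⟪nn v y, e⟫ - (NN v y)⁻¹ * ⟪nn v y, nn v y⟫) at h3
  rw [real_inner_self_eq_norm_sq] at h3
  change 0 ≤ R * (_ - (NN v y)⁻¹ * NN v y ^ 2) at h3
  rw [sq, inv_mul_cancel_left₀ h1.ne'] at h3
  have h4 := nonneg_of_mul_nonneg_right h3 hR
  rw [← sub_eq_zero, ← norm_eq_zero, ← sq_eq_zero_iff]
  refine le_antisymm ?_ (sq_nonneg _)
  rw [norm_sub_sq_real, inner_smul_right, norm_smul, he, mul_one, Real.norm_eq_abs, sq_abs]
  change NN v y ^ 2 - _ + _ ≤ 0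
  nlinarith

theorem nu_near {y y' e : EE n} {μ : ℝ} (he : ‖e‖ = 1) (h : nn v y = NN v y • e)
    (h1 : ‖nn v y' - nn v y‖ ≤ μ) (h2 : 1 / 2 ≤ NN v y') : ‖nu v y' - e‖ ≤ 4 * μ := by
  have h3 : |NN v y - NN v y'| ≤ μ := by
    rw [abs_sub_comm]; exact (abs_norm_sub_norm_le _ _).trans h1
  have h0 : 0 < NN v y' := by linarith
  have e1 : NN v y' • (nu v y' - e) = nn v y' - nn v y + (NN v y - NN v y') • e := by
    rw [smul_sub, nu, smul_inv_smul₀ h0.ne', h]; module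
  have h4 := norm_add_le (nn v y' - nn v y) ((NN v y - NN v y') • e)
  rw [← e1, norm_smul, norm_smul, he, Real.norm_eq_abs, Real.norm_eq_abs, abs_of_pos h0] at h4
  nlinarith [norm_nonneg (nu v y' - e)]

/-- `Fit` at a point with `d > 0` gives a zero-free tangent ball -/
theorem ball_of_fit (hv : Sol v) {β : Bo} {y : EE n} {r s : ℝ} (hN : 0 < NN v y) (hd : 0 < dd v y)
    (hf : Fit β v y r) (hs0 : 0 ≤ s) (hs : s ≤ (1 - β.η) * r - dd v y) :
    ∀ z ∈ closedBall (y + s • nu v y) s, 0 < v z := fun z hz => by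
  have hν := Wd.norm_nu hN
  have η0 := β.η0
  have η1 := β.η1
  have hr : 0 < r := by by_contra h; nlinarith [not_lt.1 h]
  have hw : -β.η • nu v y ∈ Core β (nu v y) := by
    constructor
    · simp [norm_smul, hν, abs_of_pos η0]
    · rw [← add_smul, norm_smul, hν, Real.norm_eq_abs, abs_of_pos (by linarith)]
      linarith [β.h1]
  refine pos_of_dd hv (lt_of_lt_of_le ?_ (hf _ hw z))
  have h1 : ‖z - cen v y r (-β.η • nu v y)‖ ≤ (1 - β.η) * r - dd v y := by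
    rw [show z - cen v y r (-β.η • nu v y) = z - (y + s • nu v y) -
      ((1 - β.η) * r - dd v y - s) • nu v y by rw [cen]; module]
    refine (norm_sub_le _ _).trans ?_
    rw [norm_smul, hν, Real.norm_eq_abs, abs_of_nonneg (by linarith)]
    linarith [mem_closedBall_iff_norm.1 hz]
  have hL : 0 < r - dd v y := by nlinarith
  have h2 := Wd.gp_anti hN.le hL (by positivity)
    (show ‖z - cen v y r (-β.η • nu v y)‖ + β.η * r ≤ r - dd v y by linarith)
  rw [show gp (NN v y) (r - dd v y) (r - dd v y) = 0 by simp [gp]] at h2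
  unfold PP
  linarith

theorem rt_pos {β : Bo} {ρm : ℝ} {y : EE n} (hρ : 0 < ρm) (hd : dd v y ≠ 0) : 0 < rt β v ρm y :=
  (lt_min (abs_pos.2 hd) hρ).trans_le (le_csInf ⟨ρm, Or.inr rfl⟩ fun _ hr => hr.elim
    (fun h => (min_le_left _ _).trans h.1.le) fun h => (min_le_right _ _).trans_eq h.symm)

theorem side (hn : 2 ≤ n) {ε τ : ℝ} (hε : 0 < ε) (hε1 : ε ≤ 1) (hτ : 0 < τ) :
    ∃ r0 R0 : ℝ, 0 < r0 ∧ 1 ≤ R0 ∧ ∀ β : Bo, β.η ≤ ε / 4 → ∀ (v : EE n → ℝ) (ρm : ℝ) (p : EE n),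
      Sol v → 0 < ρm → 0 ≤ v p → τ ≤ tt v p → ∃ (y0 : EE n) (R : ℝ), 0 ≤ R ∧
        (∀ z ∈ ball p R, 0 < v z) ∧ |dd v p| ≤ R ∧ ∀ y' ∈ ball y0 r0, ‖p - y'‖ ≤ R + 1 ∧
          |dd v y'| ≤ 1 ∧ (R0 ≤ R → 1 / 2 ≤ NN v y' →
            0 < rt β v ρm y' ∧ rt β v ρm y' ≤ (1 + 3 * ε) * R) := by
  obtain ⟨θ, R1, θ0, θ1, hD⟩ := deep hn hε hε1 hτ
  obtain ⟨K, hK1, hK⟩ := St.exists_K n
  obtain ⟨r0, r1, r2⟩ : ∃ r0 : ℝ, 0 < r0 ∧ K * (3 * r0) = θ / 16 :=
    ⟨θ / (48 * K), by positivity, by field_simp; norm_num⟩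
  have r3 : 3 * r0 ≤ 1 / 16 := by nlinarith
  refine ⟨r0, max (max R1 1) (max (1 / θ) (1 / ε)), r1, le_max_of_le_left (le_max_right _ _),
    fun β hβ v ρm p hv hρ hp ht => ?_⟩
  obtain ⟨y, hy, h⟩ := near hv hp
  have b1 : |dd v p| ≤ ‖p - y‖ := by simpa [hy] using hv.abs_dd_sub_le p y
  have b2 : ∀ y', ‖y' - y‖ ≤ 1 → ‖p - y'‖ ≤ ‖p - y‖ + 1 ∧ |dd v y'| ≤ 1 := fun y' h1 =>
    ⟨by linarith [norm_sub_le_norm_sub_add_norm_sub p y y', norm_sub_rev y y'],
      by simpa [hy] using (hv.abs_dd_sub_le y' y).trans h1⟩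
  by_cases hR : max (max R1 1) (max (1 / θ) (1 / ε)) ≤ ‖p - y‖
  swap
  · refine ⟨y, _, norm_nonneg _, h, b1, fun y' hy' => ?_⟩
    obtain ⟨c1, c2⟩ := b2 y' (by linarith [mem_ball_iff_norm.1 hy'])
    exact ⟨c1, c2, fun h1 => absurd h1 hR⟩
  simp only [max_le_iff] at hR
  obtain ⟨⟨R2, R3⟩, R4, R5⟩ := hR
  obtain ⟨e, he, e1⟩ : ∃ e : EE n, ‖e‖ = 1 ∧ p = y + ‖p - y‖ • e :=
    ⟨‖p - y‖⁻¹ • (p - y), by rw [norm_smul, norm_inv, norm_norm, inv_mul_cancel₀ (by linarith)],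
      by rw [smul_inv_smul₀ (by linarith), add_sub_cancel]⟩
  generalize ‖p - y‖ = R at *
  subst e1
  rw [div_le_iff₀ θ0] at R4
  rw [div_le_iff₀ hε] at R5
  refine ⟨y + (2 * r0) • e, R, by linarith, h, b1, fun y' hy' => ?_⟩
  rw [mem_ball_iff_norm] at hy'
  have c0 : ∀ s, 2 * r0 ≤ s → ‖y' - (y + s • e)‖ < s - r0 := fun s hs => by
    rw [show y' - (y + s • e) = y' - (y + (2 * r0) • e) - (s - 2 * r0) • e by module]
    refine (norm_sub_le _ _).trans_lt ?_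
    rw [norm_smul, he, Real.norm_eq_abs, abs_of_nonneg (by linarith)]
    linarith
  have c1 : ‖y' - y‖ ≤ 3 * r0 := by
    rw [show y' - y = y' - (y + (2 * r0) • e) + (2 * r0) • e by module]
    refine (norm_add_le _ _).trans ?_
    rw [norm_smul, he, Real.norm_eq_abs, abs_of_pos (by linarith)]
    linarith
  obtain ⟨c2, c3⟩ := b2 y' (by linarith)
  refine ⟨c2, c3, fun _ hN => ?_⟩
  have c4 : 0 < dd v y' :=
    hv.dd_pos (h y' (mem_ball_iff_norm.2 (by linarith [c0 R (by linarith)])))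
  have c5 : dd v y' ≤ 3 * r0 := by
    simpa [hy, abs_of_pos c4] using (hv.abs_dd_sub_le y' y).trans c1
  refine ⟨rt_pos hρ c4.ne', Wd.rt_le (by nlinarith) fun hf => ?_⟩
  have c6 : ‖nn v y' - nn v y‖ ≤ θ / 16 :=
    (convex_univ.norm_image_sub_le_of_norm_hasFDerivWithin_le (f' := St.Bm v) (C := K)
      (fun z _ => (St.hasFDerivAt_grad hv z).hasFDerivWithinAt)
      (fun z _ => (hK v hv z).1.trans (mul_le_of_le_one_right (by linarith) (Ok.sqrt_le z)))
      (mem_univ y) (mem_univ y')).trans (by rw [← r2]; gcongr)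
  have c7 := nu_near he (par hv (by linarith) he hy h) c6 hN
  have c8 := ball_of_fit hv (by linarith) c4 hf (s := (1 + ε) * R) (by positivity) (by
    have := β.η0
    nlinarith [mul_le_mul_of_nonneg_right (show 1 + 2 * ε ≤ (1 - β.η) * (1 + 3 * ε) by nlinarith)
      (show 0 ≤ R by linarith)])
  refine (hD v _ e R hv he R2 (fun z hz => c8 z ?_) b1).not_ge ht
  rw [mem_ball_iff_norm] at hz
  rw [mem_closedBall_iff_norm, show z - (y' + ((1 + ε) * R) • nu v y') =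
    z - (y + R • e + (ε * R) • e) - (y' - y) - ((1 + ε) * R) • (nu v y' - e) by module]
  refine (norm_sub_le _ _).trans ((add_le_add_left (norm_sub_le _ _) _).trans ?_)
  rw [norm_smul, Real.norm_eq_abs, abs_of_nonneg (by positivity)]
  have c9 : (1 + ε) * R * ‖nu v y' - e‖ ≤ (1 + 1) * R * (4 * (θ / 16)) := by gcongr
  linarith

end

end Crest.Agent.N067.Bd
end

-- ▼ part N067/B/Num

/-!
# Row 67, BAD (helper16): the numerical part
-/

set_option autoImplicit false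

open Topology Filter Set

namespace Crest.Agent.N067.Bd

theorem poly_le (k : ℝ) {ε : ℝ} (hε : 0 < ε) : ∃ C : ℝ, 1 ≤ C ∧ ∀ s : ℝ, 0 ≤ s →
    (1 + s) ^ k ≤ C * Real.exp (ε * s) := by
  obtain ⟨δ, δ0, hδ⟩ : ∃ δ : ℝ, 0 < δ ∧ |k| * δ ≤ ε :=
    ⟨ε / (|k| + 1), by positivity, by
      rw [← mul_div_assoc, div_le_iff₀ (by positivity)]; nlinarith⟩
  refine ⟨Real.exp (ε + |k| * |Real.log δ|), Real.one_le_exp (by positivity), fun s hs => ?_⟩
  have h0 : 0 < 1 + s := by linarith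
  rw [Real.rpow_def_of_pos h0, ← Real.exp_add, Real.exp_le_exp]
  have h1 := Real.log_le_sub_one_of_pos (mul_pos δ0 h0)
  rw [Real.log_mul δ0.ne' h0.ne'] at h1
  have h2 : 0 ≤ Real.log (1 + s) := Real.log_nonneg (by linarith)
  have h3 := mul_le_mul_of_nonneg_left (le_abs_self k) h2
  have h4 := mul_le_mul_of_nonneg_right (show Real.log (1 + s) ≤ δ * (1 + s) + |Real.log δ| by
    linarith [neg_abs_le (Real.log δ)]) (abs_nonneg k)
  nlinarith [mul_le_mul_of_nonneg_right hδ h0.le]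

theorem F_le {f Y : ℝ} (hf : 0 < f) (hY : 0 < Y) :
    f ^ 3 * (Y ^ (5 / 2 : ℝ) / √(1 + f ^ 2 * Y)) ≤ f ^ 2 * Y ^ 2 ∧
      Y ^ (5 / 2 : ℝ) / √(1 + f ^ 2 * Y) ≤ Y ^ (5 / 2 : ℝ) := by
  refine ⟨?_, div_le_self (by positivity) (Real.one_le_sqrt.2 (by nlinarith [sq_nonneg f]))⟩
  have h1 : Y ^ (5 / 2 : ℝ) = Y ^ 2 * √Y := by
    rw [Real.sqrt_eq_rpow, ← Real.rpow_two, ← Real.rpow_add hY]; norm_num
  have h2 : f * √Y ≤ √(1 + f ^ 2 * Y) := Real.le_sqrt_of_sq_le (by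
    rw [mul_pow, Real.sq_sqrt hY.le]; linarith)
  rw [h1, ← mul_div_assoc, div_le_iff₀ (by positivity)]
  nlinarith [mul_le_mul_of_nonneg_left h2 (show 0 ≤ f ^ 2 * Y ^ 2 by positivity)]

theorem num {K l c ε C σ : ℝ} (hl : 0 < l) (hε : 0 < ε) (hε1 : ε ≤ 1) (hC : 1 ≤ C)
    (hσ : 0 < σ) (g1 : 2 * √2 + 3 * ε ≤ 2 * c) (g2 : 2 * √2 + 2 * l * (1 + 3 * ε) + 4 * ε ≤ 5 / 2 * c) :
    ∀ᶠ f : ℝ in atTop, ∀ Z ζ r R Y : ℝ, 0 ≤ Z → 0 ≤ R → 1 ≤ r → r ≤ 1 + (1 + 3 * ε) * R → 0 < Y →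
      Y ≤ C * Real.exp (-(c * R)) → Z * Real.exp (-(l * r)) ≤ K * ζ →
      (r ≤ f → Z * (f / r) ^ (101 / 100 : ℝ) ≤ K * ζ) →
      Z ^ 2 * f ^ 3 * (Y ^ (5 / 2 : ℝ) / √(1 + f ^ 2 * Y)) * Real.exp ((2 * √2 + 2 * ε) * R) ≤
        σ * ζ ^ 2 := by
  obtain ⟨A, hA1, hA⟩ := poly_le 3 hε
  have t1 : Tendsto (fun f : ℝ => f ^ (-(1 / 50 : ℝ)) * (64 * A * C ^ 2 * K ^ 2)) atTop (𝓝 0) := by
    simpa using (tendsto_rpow_neg_atTop (y := 1 / 50) (by norm_num)).mul_const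
      (64 * A * C ^ 2 * K ^ 2)
  have t2 : Tendsto (fun f : ℝ => Real.exp (-(ε / 4 * f)) *
      (Real.exp (ε / 4) * (64 * A * C ^ 3 * K ^ 2 * Real.exp (2 * l)))) atTop (𝓝 0) := by
    simpa using (Real.tendsto_exp_neg_atTop_nhds_zero.comp
      (tendsto_id.const_mul_atTop (show 0 < ε / 4 by positivity))).mul_const
      (Real.exp (ε / 4) * (64 * A * C ^ 3 * K ^ 2 * Real.exp (2 * l)))
  filter_upwards [t1.eventually_lt_const hσ, t2.eventually_lt_const hσ, eventually_gt_atTop 0]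
    with f k1 k2 hf Z ζ r R Y hZ hR r1 r2 hY h1 h2 h3
  have r0 : 0 < r := by linarith
  have r3 : r ≤ 1 + 4 * R := by nlinarith
  have r4 : r ^ 3 ≤ 64 * (A * Real.exp (ε * R)) := by
    have := hA R hR
    rw [show (3 : ℝ) = ((3 : ℕ) : ℝ) by norm_num, Real.rpow_natCast] at this
    calc r ^ 3 ≤ (4 * (1 + R)) ^ 3 := by gcongr; linarith
      _ ≤ _ := by rw [mul_pow]; linarith
  obtain ⟨F1, F2⟩ := F_le hf hY
  have E0 := Real.exp_pos ((2 * √2 + 2 * ε) * R)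
  rcases le_total r f with h | h
  · have a1 := pow_le_pow_left₀ (by positivity) (h3 h) 2
    have a2 : f ^ 2 ≤ ((f / r) ^ (101 / 100 : ℝ)) ^ 2 * r ^ 3 * f ^ (-(1 / 50 : ℝ)) := by
      have b1 : r ^ (101 / 50 : ℝ) ≤ r ^ 3 := by
        rw [← Real.rpow_natCast]
        exact Real.rpow_le_rpow_of_exponent_le r1 (by norm_num)
      have b2 : f ^ 2 = f ^ (101 / 50 : ℝ) * f ^ (-(1 / 50 : ℝ)) := by
        rw [← Real.rpow_add hf, ← Real.rpow_two]; norm_num
      rw [← Real.rpow_natCast _ 2, ← Real.rpow_natCast _ 2, ← Real.rpow_mul (by positivity),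
        Real.div_rpow hf.le r0.le, Real.rpow_natCast, b2,
        show (101 / 100 : ℝ) * (2 : ℕ) = 101 / 50 by norm_num]
      refine mul_le_mul_of_nonneg_right ?_ (by positivity)
      rw [div_mul_eq_mul_div, le_div_iff₀ (by positivity)]
      gcongr
    have a3 : Y ^ 2 * Real.exp ((2 * √2 + 2 * ε) * R) * Real.exp (ε * R) ≤ C ^ 2 := by
      calc _ ≤ (C * Real.exp (-(c * R))) ^ 2 * Real.exp ((2 * √2 + 2 * ε) * R) *
            Real.exp (ε * R) := by gcongr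
        _ = C ^ 2 * Real.exp (-((2 * c - (2 * √2 + 3 * ε)) * R)) := by
            rw [mul_pow, ← Real.exp_nat_mul, mul_assoc, mul_assoc, ← Real.exp_add, ← Real.exp_add]
            congr 2; push_cast; ring
        _ ≤ _ := mul_le_of_le_one_right (by positivity)
            (Real.exp_le_one_iff.2 (neg_nonpos.2 (mul_nonneg (by linarith) hR)))
    calc _ = Z ^ 2 * (f ^ 3 * (Y ^ (5 / 2 : ℝ) / √(1 + f ^ 2 * Y))) *
          Real.exp ((2 * √2 + 2 * ε) * R) := by ring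
      _ ≤ Z ^ 2 * (((f / r) ^ (101 / 100 : ℝ)) ^ 2 * (64 * (A * Real.exp (ε * R))) *
          f ^ (-(1 / 50 : ℝ)) * Y ^ 2) * Real.exp ((2 * √2 + 2 * ε) * R) := by
          refine mul_le_mul_of_nonneg_right (mul_le_mul_of_nonneg_left
            (F1.trans (mul_le_mul_of_nonneg_right (a2.trans ?_) (sq_nonneg _))) (sq_nonneg _)) E0.le
          gcongr
      _ = (Z * (f / r) ^ (101 / 100 : ℝ)) ^ 2 * (f ^ (-(1 / 50 : ℝ)) * (64 * A)) *
          (Y ^ 2 * Real.exp ((2 * √2 + 2 * ε) * R) * Real.exp (ε * R)) := by ring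
      _ ≤ (K * ζ) ^ 2 * (f ^ (-(1 / 50 : ℝ)) * (64 * A)) * C ^ 2 := by gcongr
      _ = f ^ (-(1 / 50 : ℝ)) * (64 * A * C ^ 2 * K ^ 2) * ζ ^ 2 := by ring
      _ ≤ _ := mul_le_mul_of_nonneg_right k1.le (sq_nonneg _)
  · have a1 : Z ^ 2 ≤ (K * ζ) ^ 2 * Real.exp (2 * l * (1 + (1 + 3 * ε) * R)) := by
      have b1 := pow_le_pow_left₀ (by positivity) h2 2
      rw [mul_pow, ← Real.exp_nat_mul, mul_neg, Real.exp_neg, ← div_eq_mul_inv,
        div_le_iff₀ (Real.exp_pos _)] at b1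
      refine b1.trans (mul_le_mul_of_nonneg_left (Real.exp_le_exp.2 ?_) (sq_nonneg _))
      push_cast
      nlinarith
    have a2 : Y ^ (5 / 2 : ℝ) ≤ C ^ 3 * Real.exp (-(5 / 2 * c * R)) := by
      refine (Real.rpow_le_rpow hY.le h1 (by norm_num)).trans ?_
      rw [Real.mul_rpow (by linarith) (Real.exp_pos _).le, ← Real.exp_mul]
      refine mul_le_mul ?_ (le_of_eq (by congr 1; ring)) (Real.exp_pos _).le (by positivity)
      rw [← Real.rpow_natCast]
      exact Real.rpow_le_rpow_of_exponent_le hC (by norm_num)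
    have a3 : f ^ 3 ≤ 64 * (A * Real.exp (ε * R)) := le_trans (by gcongr) r4
    have a4 : Real.exp (2 * l * (1 + (1 + 3 * ε) * R)) * Real.exp (ε * R) *
        Real.exp (-(5 / 2 * c * R)) * Real.exp ((2 * √2 + 2 * ε) * R) ≤
        Real.exp (-(ε / 4 * f)) * Real.exp (ε / 4) * Real.exp (2 * l) := by
      simp only [← Real.exp_add, Real.exp_le_exp]
      nlinarith [mul_le_mul_of_nonneg_right g2 hR, mul_le_mul_of_nonneg_left (h.trans r3) hε.le]
    calc _ ≤ (K * ζ) ^ 2 * Real.exp (2 * l * (1 + (1 + 3 * ε) * R)) *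
          (64 * (A * Real.exp (ε * R))) * (C ^ 3 * Real.exp (-(5 / 2 * c * R))) *
          Real.exp ((2 * √2 + 2 * ε) * R) := by
          have := F2.trans a2
          gcongr
      _ = 64 * A * C ^ 3 * K ^ 2 * ζ ^ 2 * (Real.exp (2 * l * (1 + (1 + 3 * ε) * R)) *
          Real.exp (ε * R) * Real.exp (-(5 / 2 * c * R)) * Real.exp ((2 * √2 + 2 * ε) * R)) := by
          ring
      _ ≤ 64 * A * C ^ 3 * K ^ 2 * ζ ^ 2 *
          (Real.exp (-(ε / 4 * f)) * Real.exp (ε / 4) * Real.exp (2 * l)) := by gcongr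
      _ = Real.exp (-(ε / 4 * f)) *
          (Real.exp (ε / 4) * (64 * A * C ^ 3 * K ^ 2 * Real.exp (2 * l))) * ζ ^ 2 := by ring
      _ ≤ _ := mul_le_mul_of_nonneg_right k2.le (sq_nonneg _)

end Crest.Agent.N067.Bd
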